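import Vale.Agent.P011UHB.E6
import Vale.Agent.P011UQ6.Ldv
import Vale.Agent.P011LQ.Three
import Vale.Agent.P011.H279.SqrtB
import Vale.Agent.P011.H698.DensFF

/-!
Projective actions of exponent three over a global function field are split by a cyclic cubic
extension.
-/

set_option autoImplicit false
set_option linter.all false

namespace Vale.Agent.P011UQ3

open Module IntermediateField Polynomial
open Vale.Agent.P011 Vale.Agent.P011LQ Vale.Agent.P011.W Vale.Agent.P011.H738
  Vale.Agent.P011.H271 Vale.Agent.P011.Even.LocDiv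

/-- The cubic polynomial has no root modulo the maximal ideal. -/
def Nr {R : Type} [NormedField R] (u : R) : Prop :=
  ‖u‖ ≤ 1 ∧ ∀ x, ‖x‖ ≤ 1 → ¬‖(cp u).eval x‖ < 1

section

variable {R : Type} [NormedField R] [IsUltrametricDist R]

theorem ex_nr [ProperSpace R] : ∃ u : R, Nr u := by
  let _ : Field (Res R) := Field.ofIsUnitOrEqZero (res_isUnit_or R)
  obtain ⟨t, ht⟩ := exists_noroot (Res R)
  obtain ⟨u, rfl⟩ := Ideal.Quotient.mk_surjective t
  refine ⟨u.1, u.2, fun x hx h => ht (Ideal.Quotient.mk _ ⟨x, hx⟩) ?_⟩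
  rw [← map_cp, Ideal.Quotient.eq_zero_iff_mem, mem_idealM]
  exact (congrArg norm (map_cp (ringO R).subtype u ⟨x, hx⟩)).trans_lt h

theorem Nr.near {u u' : R} (h : Nr u) (e : ‖u' - u‖ < 1) : Nr u' := by
  refine ⟨?_, fun x hx k => h.2 x hx ?_⟩
  · rw [← sub_add_cancel u' u]
    exact (IsUltrametricDist.norm_add_le_max _ _).trans (max_le e.le h.1)
  · have e1 : (cp u).eval x = (cp u').eval x + (u' - u) * (x * (x + -1)) := by
      rw [cp_eval, cp_eval]; ring
    have e2 : ‖x + -1‖ ≤ 1 :=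
      (IsUltrametricDist.norm_add_le_max _ _).trans (max_le hx (by simp))
    rw [e1]
    refine (IsUltrametricDist.norm_add_le_max _ _).trans_lt (max_lt k ?_)
    rw [norm_mul, norm_mul]
    exact (mul_le_of_le_one_right (norm_nonneg _) (mul_le_one₀ hx (norm_nonneg _) e2)).trans_lt e

end

theorem cp_sep {k : Type} [Field k] {u : k} (h : ∀ x, (cp u).eval x ≠ 0) : (cp u).Separable := by
  refine (separable_iff_derivative_ne_zero (cp_irr h)).2 fun e => h (-1) ?_
  have a : ∀ x, (cp u).derivative.eval x = 3 * x ^ 2 - 2 * u * x + (u - 3) := fun x => by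
    simp [cp]
    ring
  have a0 := a 0
  have a1 := a 1
  rw [e, eval_zero] at a0 a1
  rw [cp_eval]
  linear_combination a0 - a1

theorem root_mem {k K : Type} [Field k] [Field K] [Algebra k K] {u : k} {θ y : K}
    (hθ : (cp (algebraMap k K u)).eval θ = 0) (hy : (cp (algebraMap k K u)).eval y = 0) :
    y ∈ k⟮θ⟯ := by
  rw [cp_eval] at hθ hy
  have t0 : θ ≠ 0 := by
    rintro rfl
    simp at hθ
  have t1 : 1 - θ ≠ 0 := fun e => by
    rw [← sub_eq_zero.1 e] at hθ
    exact one_ne_zero (by linear_combination -hθ : (1 : K) = 0)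
  have e : algebraMap k K u = θ + (1 - θ)⁻¹ + (1 - θ⁻¹) := by
    field_simp
    linear_combination hθ
  have fac : (y - θ) * (y - (1 - θ)⁻¹) * (y - (1 - θ⁻¹)) = 0 := by
    rw [← hy, e]
    field_simp
    ring
  have m := mem_adjoin_simple_self k θ
  simp only [mul_eq_zero, sub_eq_zero] at fac
  rcases fac with (rfl | rfl) | rfl
  exacts [m, inv_mem (sub_mem (one_mem _) m), sub_mem (one_mem _) (inv_mem m)]

/-- **BQ3**. -/
theorem bq3 : P011UHB.BQ3 := by
  intro k K _ _ _ _ _ n _ _ _ A l h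
  classical
  obtain ⟨d, D, _, _, _, _, hD, h1, h2⟩ := P011UQ6.ldv k K n 3 A l h
  let _ : StarRing k := starRingOfComm
  obtain ⟨T, hT⟩ := H961.exists_split_ae (k := k) (K := k) (A := D)
    (fun x => ⟨fun _ => ⟨x, rfl⟩, fun _ => rfl⟩) (deg_pos hD).ne' hD
  obtain ⟨v₀⟩ := Hey.nonempty_place k
  choose t ht using fun v : Place k => ex_nr (R := v.comp)
  obtain ⟨u, hu⟩ := H698.place_weak (insert v₀ T) (fun v => t v.1) one_pos
  have nr : ∀ v ∈ insert v₀ T, Nr (algebraMap k v.comp u) := fun v hv => (ht v).near (hu ⟨v, hv⟩)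
  have n0 : ∀ x, (cp u).eval x ≠ 0 := fun x e =>
    cp_ne (nr v₀ (by simp)).1 (nr v₀ (by simp)).2 (algebraMap k _ x) (by
      rw [← map_cp, e, map_zero])
  have := IsSepClosure.sep_closed k (K := K)
  obtain ⟨θ, hθ⟩ := IsSepClosed.exists_root (cp (algebraMap k K u))
    (degree_ne_of_natDegree_ne (by simp [cp_deg])) (cp_map (algebraMap k K) u ▸ (cp_sep n0).map)
  replace hθ : (cp (algebraMap k K u)).eval θ = 0 := hθ
  have m : minpoly k θ = cp u := cp_min n0 (by rw [cp_aeval, hθ])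
  have i : IsIntegral k θ := Algebra.IsIntegral.isIntegral θ
  have := adjoin.finiteDimensional i
  have : GFF k⟮θ⟯ := Hey.H63.gff_of_finite (k := k)
  have : Normal k k⟮θ⟯ := normal_iff_forall_map_le'.2 fun σ => by
    rw [adjoin_map, Set.image_singleton, adjoin_simple_le_iff]
    refine root_mem hθ ?_
    have := map_cp (σ : K →+* K) (algebraMap k K u) θ
    rw [hθ, map_zero, RingHom.coe_coe, σ.commutes] at this
    exact this.symm
  refine ⟨k⟮θ⟯, by rw [adjoin.finrank i, m, cp_deg], ⟨⟩, (h2 θ (H279.Sq.spl_of_local hD _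
    fun W => ?_)).mono fun σ s => s θ (mem_adjoin_simple_self k θ)⟩
  obtain ⟨v, c, c0, hv⟩ := Hey.H63.exists_below (k := k) W
  obtain ⟨φ, hφ⟩ := Hey.H63.exists_compHom v W c0 hv
  rw [show (algebraMap k⟮θ⟯ W.comp).comp (algebraMap k k⟮θ⟯) = φ.comp (algebraMap k v.comp) from
    RingHom.ext fun x => (hφ x).symm]
  let _ := nnfPlace v
  by_cases e : v ∈ T
  · obtain ⟨q, E, _, _, _, _, a1, a2, a3⟩ := h1 v.comp
    rw [a3]
    rcases (Nat.dvd_prime Nat.prime_three).1 a1 with rfl | rfl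
    · exact (spl_of_maxfield a2 (finrank_self _) (Algebra.ofId _ E)).comp φ
    · have nv := nr v (Finset.mem_insert_of_mem e)
      refine spl3 a2 nv.1 nv.2 φ (θ := algebraMap k⟮θ⟯ _ (AdjoinSimple.gen k θ)) ?_
      rw [hφ, ← map_cp, _root_.map_eq_zero]
      exact Subtype.ext ((map_cp (algebraMap k⟮θ⟯ K) _ _).trans hθ)
  · obtain ⟨g, hg⟩ := hT v e v.comp (algebraMap k _) (norm_alg v)
    exact Spl.comp ⟨g, hg⟩ φ

end Vale.Agent.P011UQ3
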